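import Vale.Agent.P193.W4.Final
import Vale.Agent.P193.W4.A5.Rigid
import Vale.Agent.P193.W4.A5.Up

/-! The Boone-Higman conjecture. -/

namespace Vale.Agent.Results.P193.BooneHigman

open Vale.Agent.P193

theorem result : ∀ (G : Type) [Group G], HasDecidableWP G →
    ∃ (H : Type) (_ : Group H), Group.IsFinitelyPresented H ∧ IsSimpleGroup H ∧
      ∃ f : G →* H, Function.Injective f :=
  fun G _ hG => W4.answer_of_rigid
    (fun C => W4.A5.rigid_of_up (W4.A5.upStatement C)) G hG

end Vale.Agent.Results.P193.BooneHigman
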