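import Vale.Agent.P193.Diagonal

/-! No Sigma-zero-two family of finitely presented simple groups is a Boone-Higman envelope. -/

namespace Vale.Agent.Results.P193.NoSigma2Envelope

open Vale.Agent.P193

theorem result :
    (∀ P : Set Code, IsSigma2 P → (∀ p ∈ P, IsSimpleGroup (CodeGroup p)) →
      ∃ (G : Type) (_ : Group G), (∃ a t : G, Subgroup.closure {a, t} = ⊤) ∧
        derivedSeries G 3 = ⊥ ∧ HasDecidableWP G ∧
        ∀ p ∈ P, ∀ f : G →* CodeGroup p, ¬ Function.Injective f) ∧
    ((∀ (G : Type) [Group G], (∃ a t : G, Subgroup.closure {a, t} = ⊤) →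
        derivedSeries G 3 = ⊥ → HasDecidableWP G →
        ∃ p : Code, IsSimpleGroup (CodeGroup p) ∧
          ∃ f : G →* CodeGroup p, Function.Injective f) →
      ¬ IsSigma2 {p : Code | IsSimpleGroup (CodeGroup p)}) := by
  refine ⟨diagonal, fun hQ hS => ?_⟩
  obtain ⟨G, _, h2, h3, hd, hno⟩ := diagonal _ hS fun p hp => hp
  obtain ⟨p, hp, f, hf⟩ := hQ G h2 h3 hd
  exact hno p hp f hf

end Vale.Agent.Results.P193.NoSigma2Envelope
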